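import Mathlib
import Crest.Prelude.Def_TreeProducts
import Crest.Agent.Lib.S0166.Helper32Core
import Crest.Agent.Lib.S0169.Helper36Prob

/-!
Package P169 interface theorem `tree_data` (row 125): the classes of the path products form a
bounded tree in the product span whose children sequences have increments of constant positive
norm and `√card`-bounded partial sums.  (The complete S0169 statement is
`Crest.Agent.S0169.Helper36.tree_product_main` in `Helper36Prob`.)
-/

set_option autoImplicit false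

namespace Crest.Agent.S0169.Helper36

open MeasureTheory ProbabilityTheory
open Crest.AnalysisR Crest.AnalysisR.TreeProduct

theorem tree_data (ν : Measure ℝ) [IsProbabilityMeasure ν] (hpos : ν (Set.Ioi 0) = 1)
    (hnc : ∀ c : ℝ, ν ≠ Measure.dirac c) (hmean : ∫ x, x ∂ν = 1)
    (hm2 : Integrable (fun x : ℝ => x ^ 2) ν) (Ω : Type) [MeasurableSpace Ω] (μ : Measure Ω)
    [IsProbabilityMeasure μ] (W : List ℕ → Ω → ℝ) (hW : IsRealization ν μ W) :
    ∃ (T : Set (productSpan μ W)) (δ : ℝ), 0 < δ ∧ T.Nonempty ∧ (∀ x ∈ T, ‖x‖ ≤ 1) ∧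
      ∀ x ∈ T, ∃ d : ℕ → productSpan μ W, (∀ a, x + d a ∈ T) ∧ (∀ a, δ ≤ ‖d a‖) ∧
        ∃ C : ℝ, ∀ s : Finset ℕ, ‖∑ a ∈ s, d a‖ ≤ C * Real.sqrt s.card := by
  have hprops := pathProduct_props hW hpos hmean hm2
  have hint : ∀ v, Integrable (pathProduct W v) μ := fun v => (hprops v).1
  have h1 : ∀ v, ∫ ω, |pathProduct W v ω| ∂μ = 1 := fun v => (hprops v).2
  have hθpos : 0 < ∫ x, |x - 1| ∂ν := integral_abs_sub_one_pos hnc hm2
  let z : List ℕ → ℕ → ↥(productSpan μ W) := fun v a => ppX hint (a :: v) - ppX hint v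
  have hznorm : ∀ v a, ‖z v a‖ = ∫ x, |x - 1| ∂ν := fun v a => norm_increment hW hint h1 v a
  have hzsum : ∀ (v : List ℕ) (T : Finset ℕ),
      ‖∑ a ∈ T, z v a‖ ≤ Real.sqrt (∫ x, (x - 1) ^ 2 ∂ν) * Real.sqrt T.card := by
    intro v T
    have e : ((∑ a ∈ T, z v a : ↥(productSpan μ W)) : Lp ℝ 1 μ)
        = ∑ a ∈ T, (ppL hint (a :: v) - ppL hint v) := by
      rw [Submodule.coe_sum]
      rfl
    rw [Submodule.coe_norm, e, norm_sum_increments hW hint h1 v T]
    exact integral_abs_sum_le hW hmean hm2 v T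
  refine ⟨Set.range (ppX hint), ∫ x, |x - 1| ∂ν, hθpos, ⟨_, ⟨[], rfl⟩⟩, ?_, ?_⟩
  · rintro _ ⟨v, rfl⟩
    exact (norm_ppL hint h1 v).le
  · rintro _ ⟨v, rfl⟩
    refine ⟨z v, fun a => ⟨a :: v, ?_⟩, fun a => (hznorm v a).ge, _, hzsum v⟩
    show ppX hint (a :: v) = ppX hint v + (ppX hint (a :: v) - ppX hint v)
    abel

end Crest.Agent.S0169.Helper36
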